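import Vale.Agent.P123.Main

/-!
The numerical range constant equals two.
-/

open scoped InnerProductSpace

namespace Vale.Agent.Results.P123.CrouzeixConjecture

open Vale.Agent.P123

universe u

attribute [-instance] WithCStarModule.instCStarModuleComplex

lemma upper {H : Type u} [NormedAddCommGroup H] [InnerProductSpace ℂ H] [Nontrivial H]
    (A : H →L[ℂ] H) (P : Polynomial ℂ) (M : ℝ)
    (hM : ∀ x : H, ‖x‖ = 1 → ‖P.eval ⟪x, A x⟫_ℂ‖ ≤ M) :
    ‖Polynomial.aeval A P‖ ≤ 2 * M := by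
  obtain ⟨v, hv⟩ := exists_ne (0 : H)
  have h1 : ‖((‖v‖⁻¹ : ℝ) : ℂ) • v‖ = 1 := by
    rw [norm_smul, Complex.norm_real, norm_inv, norm_norm,
      inv_mul_cancel₀ (norm_ne_zero_iff.mpr hv)]
  exact norm_aeval_le_two_mul A P M hM ((norm_nonneg _).trans (hM _ h1))

theorem result :
    (∀ (H : Type u) [NormedAddCommGroup H] [InnerProductSpace ℂ H] [CompleteSpace H] [Nontrivial H]
        (A : H →L[ℂ] H) (P : Polynomial ℂ) (M : ℝ),
        (∀ x : H, ‖x‖ = 1 → ‖P.eval ⟪x, A x⟫_ℂ‖ ≤ M) → ‖Polynomial.aeval A P‖ ≤ 2 * M) ∧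
      IsLeast {C : ℝ | ∀ (H : Type) [NormedAddCommGroup H] [InnerProductSpace ℂ H]
        [CompleteSpace H] [Nontrivial H] (A : H →L[ℂ] H) (P : Polynomial ℂ) (M : ℝ),
        (∀ x : H, ‖x‖ = 1 → ‖P.eval ⟪x, A x⟫_ℂ‖ ≤ M) → ‖Polynomial.aeval A P‖ ≤ C * M} 2 := by
  refine ⟨fun H _ _ _ _ A P M h => upper A P M h, fun H _ _ _ _ A P M h => upper A P M h, ?_⟩
  intro C hC
  obtain ⟨h1, h2⟩ := shiftTwo_extremal
  have := hC (EuclideanSpace ℂ (Fin 2)) shiftTwo Polynomial.X (1 / 2)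
    (fun x hx => by simpa using h2 x hx)
  rw [Polynomial.aeval_X] at this
  linarith

end Vale.Agent.Results.P123.CrouzeixConjecture
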